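import Vale.Agent.P004Z.Th.Gs
import Vale.Agent.P004Z.St

/-!
# P004Z: row GAU (helper84)
-/

set_option autoImplicit false
set_option linter.all false

open Complex Finset
open scoped Real NumberTheorySymbols

noncomputable section

namespace Vale.Agent.P004Z

open Hd Gq

namespace Gq

theorem J_flip {δ' l : ℕ} (h : δ' % 4 = 3) (hl : Odd l) : J(-(δ' : ℤ) | l) = J(l | δ') := by
  rw [← neg_one_mul, jacobiSym.mul_left, J_neg_one hl]
  split_ifs with h1
  · rw [one_mul, jacobiSym.quadratic_reciprocity_one_mod_four h1 (Nat.odd_iff.2 (by omega))]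
  · rw [jacobiSym.quadratic_reciprocity_three_mod_four h (by obtain ⟨m, rfl⟩ := hl; omega)]
    ring

theorem J_all {δ' : ℕ} (n : ℕ) : n ≠ 0 → (∀ p : ℕ, p.Prime → p ∣ n → J(p | δ') = 1) →
    J(n | δ') = 1 := by
  induction n using Nat.recOnMul with
  | zero => simp
  | one => simp
  | prime p h => exact fun _ k => k p h dvd_rfl
  | mul a b ha hb =>
    intro h k
    rw [Nat.cast_mul, jacobiSym.mul_left, ha (left_ne_zero_of_mul h) fun p hp d => k p hp (d.mul_right b),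
      hb (right_ne_zero_of_mul h) fun p hp d => k p hp (d.mul_left a), mul_one]

theorem cop_J {n δ' : ℕ} (h0 : δ' ≠ 0) (h : J(n | δ') = 1) : n.Coprime δ' := by
  by_contra e
  rw [jacobiSym.eq_zero_iff.2 ⟨h0, by simpa using e⟩] at h
  exact zero_ne_one h

theorem sq_dvd {N x y : ℤ} (h : 2 * N ∣ x - y) : 4 * N ∣ x ^ 2 - y ^ 2 := by
  obtain ⟨k, hk⟩ := h
  exact ⟨k * y + k ^ 2 * N, by rw [sub_eq_iff_eq_add.1 hk]; ring⟩

end Gq

/-- **row GAU** -/
theorem gau_row : GAU := fun N _ δ δ' β h => by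
  have m4 : δ' % 4 = 3 := by have := h.m8; omega
  have o' : Odd δ' := Nat.odd_iff.2 (by omega)
  have h1' : 1 < δ' := by omega
  have hp : ∀ p : ℕ, p.Prime → p ∣ N * δ → J(p | δ') = 1 := fun p hp d => by
    rcases eq_or_ne p 2 with rfl | h2
    · rw [Nat.cast_ofNat, jacobiSym.at_two o', ZMod.χ₈_nat_eq_if_mod_eight]
      have := h.m8
      rw [if_neg (by omega), if_pos (by omega)]
    · rw [← J_flip m4 (hp.odd_of_ne_two h2), h.spl p hp h2 d]
  have jN : J(N | δ') = 1 := J_all N (NeZero.ne N) fun p q d => hp p q (d.mul_right δ)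
  have jδ : J(δ | δ') = 1 := J_all δ h.ok.sq.ne_zero fun p q d => hp p q (d.mul_left N)
  have c1 := cop_J h.sq.ne_zero jN
  have c2 := cop_J h.sq.ne_zero jδ
  have ok1 : Ok N (δ * δ') := ⟨h.ok.odd.mul o', (Nat.squarefree_mul c2).2 ⟨h.ok.sq, h.sq⟩,
    one_lt_mul_of_lt_of_le h.ok.one h1'.le, h.ok.cop.mul_right c1⟩
  have r4 : (4 * N : ℤ) ∣ β ^ 2 + δ' := (show (4 * N : ℤ) ∣ 16 * N from ⟨4, by ring⟩).trans h.rt
  have un : IsUnit (β : ZMod (2 * N)) := by
    obtain ⟨k, hk⟩ := r4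
    have u : IsUnit ((δ' : ℕ) : ZMod (2 * N)) := (ZMod.isUnit_iff_coprime _ _).2
      (Nat.Coprime.mul_right ((Nat.coprime_two_right).2 o') c1.symm)
    have e : ((δ' : ℕ) : ZMod (2 * N)) = β * -β := by
      rw [← Int.cast_natCast, ← Int.cast_neg, ← Int.cast_mul]
      exact cast_eq ⟨2 * k, by push_cast; linear_combination hk⟩
    exact isUnit_of_mul_isUnit_left (e ▸ u)
  have kp : 2 * N * kap N δ * kap N (δ * δ') = I := by
    have e1 : (J(N | δ) : ℂ) * J(N | δ) = 1 := by exact_mod_cast J_cop h.ok.cop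
    have e2 : ((√(2 * N : ℝ) : ℝ) : ℂ) ^ 2 = 2 * N := by
      rw [← ofReal_pow, Real.sq_sqrt (by positivity)]; push_cast; rfl
    have e3 : (2 * N : ℂ) ≠ 0 := mul_ne_zero two_ne_zero (Nat.cast_ne_zero.2 (NeZero.ne N))
    have e5 : e4 δ * e4 (δ * δ') = I := by
      have : δ % 4 = 1 ∨ δ % 4 = 3 := by obtain ⟨m, hm⟩ := h.ok.odd; omega
      rcases this with a | a <;> simp [e4, Nat.mul_mod δ δ' 4, a, m4]
    rw [kap_eq h.ok.odd h.ok.sq, kap_eq ok1.odd ok1.sq, mul_assoc, div_mul_div_comm, ← sq, e2,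
      mul_div_cancel₀ _ e3, jacobiSym.mul_right' _ h.ok.sq.ne_zero h.sq.ne_zero, jN, mul_one]
    linear_combination e4 δ * e4 (δ * δ') * e1 + e5
  refine ⟨⟨h.ok, ok1, un, ?_, kp⟩, ⟨ok1, h.ok, ?_, ?_, by rw [mul_right_comm, kp]⟩, c2, ?_, jN,
    fun l => J_flip m4, fun S hS => ?_⟩
  · have e := dvd_val (n := 2 * N) β
    rw [Nat.cast_mul, Nat.cast_ofNat] at e
    refine (((sq_dvd e).add r4).mul_right (δ : ℤ)).trans (dvd_of_eq ?_)
    push_cast
    ring
  · exact IsUnit.of_mul_eq_one _ (ZMod.inv_mul_of_unit _ un)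
  · generalize hσ : ((β : ZMod (2 * N))⁻¹).val = σ
    have e : (2 * N : ℤ) ∣ σ * β - 1 := by
      have : ((σ * β : ℤ) : ZMod (2 * N)) = (1 : ℤ) := by
        push_cast; rw [← hσ, ZMod.natCast_zmod_val, ZMod.inv_mul_of_unit _ un]
      simpa using (ZMod.intCast_eq_intCast_iff_dvd_sub _ _ _).1 this.symm
    refine (((r4.mul_left (σ ^ 2)).sub (sq_dvd e)).mul_right (δ : ℤ)).trans (dvd_of_eq ?_)
    push_cast
    ring
  · rw [eps, J_neg_one o', if_neg (by omega)]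
  · obtain ⟨a, ha⟩ := ex_neg o' h.sq h1'
    obtain ⟨p, h1, h2, h3⟩ := Nat.forall_exists_prime_gt_and_modEq (max S 2) h.sq.ne_zero
      (cop_J (n := a * a) h.sq.ne_zero (by rw [Nat.cast_mul, jacobiSym.mul_left, ha]; rfl)).coprime_mul_left
    refine ⟨p, h2, fun d => (Nat.le_of_dvd (Nat.pos_of_ne_zero hS) d).not_gt (by omega), ?_⟩
    rw [J_flip m4 (h2.odd_of_ne_two (by omega)), J_congr (Nat.modEq_iff_dvd.1 h3.symm), ha]

end Vale.Agent.P004Z
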