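import Vale.Agent.P004Z.Hd.Bas
import Vale.Agent.P016Z.Sym.G2a

/-!
# P004Z: sums over residue classes, Gauss sums of the Jacobi symbol and their sign (helper84)
-/

set_option autoImplicit false
set_option linter.all false

open Complex Finset
open scoped Real NumberTheorySymbols

noncomputable section

namespace Vale.Agent.P004Z.Gq

open Hd

/-! ### the exponential -/

theorem ee_add (x y : ℂ) : ee (x + y) = ee x * ee y := by rw [ee, mul_add, exp_add]; rfl

theorem ee_zero : ee 0 = 1 := by simp [ee]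

theorem ee_int (n : ℤ) : ee n = 1 := by rw [ee, mul_comm, exp_int_mul_two_pi_mul_I]

theorem ee_ne (x : ℂ) : ee x ≠ 0 := exp_ne_zero _

theorem ee_congr {x y : ℂ} (n : ℤ) (h : x = y + n) : ee x = ee y := by
  rw [h, ee_add, ee_int, mul_one]

theorem ee_std (n : ℕ) [NeZero n] (j : ℤ) : ee (j / n) = ZMod.stdAddChar (j : ZMod n) := by
  rw [ZMod.stdAddChar_coe, ee, mul_div_assoc]

theorem ee_dvd {n : ℕ} (hn : n ≠ 0) {x y : ℤ} (h : (n : ℤ) ∣ x - y) : ee (x / n) = ee (y / n) := by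
  obtain ⟨k, hk⟩ := h
  have : (n : ℂ) ≠ 0 := Nat.cast_ne_zero.2 hn
  refine ee_congr k ?_
  rw [sub_eq_iff_eq_add'.1 hk]
  push_cast
  field_simp

/-! ### sums over residue classes -/

section sums

variable {A : Type*} [AddCommMonoid A]

/-- periodic functions -/
def P1 (n : ℕ) (f : ℤ → A) : Prop := ∀ x y, (n : ℤ) ∣ x - y → f x = f y

theorem sum_zmod (n : ℕ) [NeZero n] (g : ZMod n → A) : ∑ x ∈ range n, g x = ∑ y, g y :=
  sum_nbij' (fun x => (x : ZMod n)) ZMod.val (by simp) (by simp [ZMod.val_lt])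
    (fun x hx => ZMod.val_cast_of_lt (mem_range.1 hx)) (by simp) fun _ _ => rfl

theorem dvd_val {n : ℕ} [NeZero n] (x : ℤ) : (n : ℤ) ∣ ((x : ZMod n).val : ℤ) - x :=
  (ZMod.intCast_eq_intCast_iff_dvd_sub _ _ _).1 (by simp)

theorem P1.zmod {n : ℕ} [NeZero n] {f : ℤ → A} (h : P1 n f) :
    ∑ x ∈ range n, f x = ∑ y : ZMod n, f y.val := by
  rw [← sum_zmod]
  exact sum_congr rfl fun x hx => by rw [ZMod.val_cast_of_lt (mem_range.1 hx)]

/-- the Chinese remainder theorem for sums -/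
theorem crt1 {a b : ℕ} (ha : a ≠ 0) (hb : b ≠ 0) {α β : ℤ} (h1 : (b : ℤ) ∣ α) (h2 : IsCoprime (a : ℤ) α)
    (h3 : (a : ℤ) ∣ β) (h4 : IsCoprime (b : ℤ) β) {f : ℤ → A} (h : P1 (a * b) f) :
    ∑ x ∈ range (a * b), f x = ∑ u ∈ range a, ∑ v ∈ range b, f (α * u + β * v) := by
  have : NeZero (a * b) := ⟨mul_ne_zero ha hb⟩
  have k : ∀ {n u v : ℕ}, u < n → v < n → (n : ℤ) ∣ (u : ℤ) - v → u = v := fun hu hv d =>
    Nat.ModEq.eq_of_lt_of_lt (Nat.modEq_iff_dvd.2 d).symm hu hv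
  have hi : Function.Injective fun p : Fin a × Fin b =>
      ((α * (p.1 : ℕ) + β * (p.2 : ℕ) : ℤ) : ZMod (a * b)) := fun p q e => by
    have d := (ZMod.intCast_eq_intCast_iff_dvd_sub _ _ _).1 e.symm
    push_cast at d
    rw [show α * (p.1 : ℕ) + β * (p.2 : ℕ) - (α * (q.1 : ℕ) + β * (q.2 : ℕ)) =
      α * ((p.1 : ℕ) - (q.1 : ℕ)) + β * ((p.2 : ℕ) - (q.2 : ℕ)) by ring] at d
    exact Prod.ext (Fin.ext (k p.1.2 q.1.2 (h2.dvd_of_dvd_mul_left ((dvd_add_left (h3.mul_right _)).1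
      ((dvd_mul_right _ _).trans d))))) (Fin.ext (k p.2.2 q.2.2 (h4.dvd_of_dvd_mul_left
        ((dvd_add_right (h1.mul_right _)).1 ((dvd_mul_left _ _).trans d)))))
  rw [h.zmod, ← ((Fintype.bijective_iff_injective_and_card _).2 ⟨hi, by simp⟩).sum_comp,
    Fintype.sum_prod_type, sum_range]
  refine sum_congr rfl fun u _ => ?_
  rw [sum_range]
  exact sum_congr rfl fun v _ => h _ _ (dvd_val _)

end sums

theorem sq_ind {P : ℕ → Prop} (h1 : P 1) (hp : ∀ p, p.Prime → p ≠ 2 → P p)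
    (hm : ∀ a b, Odd a → Odd b → Squarefree a → Squarefree b → a.Coprime b → P a → P b → P (a * b))
    (δ : ℕ) : Odd δ → Squarefree δ → P δ := by
  induction δ using Nat.recOnMul with
  | zero => simp
  | one => exact fun _ _ => h1
  | prime p h => exact fun o _ => hp p h fun e => o.not_two_dvd_nat (e ▸ dvd_rfl)
  | mul a b ha hb =>
    exact fun o s => have o' := Nat.odd_mul.1 o
      hm a b o'.1 o'.2 s.of_mul_left s.of_mul_right (Nat.coprime_of_squarefree_mul s)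
        (ha o'.1 s.of_mul_left) (hb o'.2 s.of_mul_right)

/-! ### primes -/

/-- the quadratic character with complex values -/
def qc (p : ℕ) [Fact p.Prime] (x : ZMod p) : ℂ := (quadraticChar (ZMod p) x : ℤ)

section prime

variable {p : ℕ} [Fact p.Prime]

theorem J_qc (a : ℤ) : (J(a | p) : ℂ) = qc p a := by
  rw [← jacobiSym.legendreSym.to_jacobiSym]; rfl

theorem qc_mul (x y : ZMod p) : qc p (x * y) = qc p x * qc p y := by
  rw [qc, map_mul, Int.cast_mul]; rfl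

theorem qc_zero : qc p 0 = 0 := by simp [qc]

theorem qc_sq {x : ZMod p} (h : x ≠ 0) : qc p x * qc p x = 1 := by
  rw [qc, ← Int.cast_mul, ← sq, quadraticChar_sq_one h, Int.cast_one]

theorem char_ne (h : p ≠ 2) : ringChar (ZMod p) ≠ 2 := by rwa [ZMod.ringChar_zmod_n]

theorem qc_sum (h : p ≠ 2) : ∑ x, qc p x = 0 := by
  simp only [qc, ← Int.cast_sum, quadraticChar_sum_zero (char_ne h), Int.cast_zero]

theorem gs_qc : gs p = ∑ x, qc p x * ZMod.stdAddChar x := by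
  rw [gs, ← sum_zmod]
  refine sum_congr rfl fun x _ => ?_
  rw [J_qc, ← Int.cast_natCast (R := ℂ) x, ee_std, Int.cast_natCast]

theorem qc_tw (h : p ≠ 2) (t : ZMod p) :
    ∑ x, qc p x * ZMod.stdAddChar (t * x) = qc p t * gs p := by
  rcases eq_or_ne t 0 with rfl | ht
  · simp [qc_sum h, qc_zero]
  rw [gs_qc, ← Equiv.sum_comp (Equiv.mulLeft₀ t ht) fun x => qc p x * ZMod.stdAddChar x, mul_sum]
  refine sum_congr rfl fun x _ => ?_
  rw [Equiv.mulLeft₀_apply, qc_mul, ← mul_assoc, ← mul_assoc, qc_sq ht, one_mul]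

theorem sum_sq (h : p ≠ 2) (f : ZMod p → ℂ) : ∑ u, f (u ^ 2) = ∑ y, (qc p y + 1) * f y := by
  rw [← sum_fiberwise univ (fun u : ZMod p => u ^ 2)]
  refine sum_congr rfl fun y _ => ?_
  have := quadraticChar_card_sqrts (char_ne h) y
  rw [Set.toFinset_setOf] at this
  rw [sum_congr rfl fun u hu => congrArg f (mem_filter.1 hu).2, sum_const, nsmul_eq_mul, qc]
  congr 1
  exact_mod_cast this

theorem sum_disc (h : p ≠ 2) (D : ZMod p) :
    ∑ u, qc p (u ^ 2 - D) = (if D = 0 then (p : ℂ) else 0) - 1 := by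
  split_ifs with hD
  · have : ∀ u : ZMod p, qc p (u ^ 2 - D) = 1 - if u = 0 then 1 else 0 := fun u => by
      rw [hD, sub_zero, sq, qc_mul]
      split_ifs with e
      · simp [e, qc_zero]
      · rw [qc_sq e, sub_zero]
    simp [this]
  have k := jacobiSum_nontrivial_inv (quadraticChar_ne_one (char_ne h))
  rw [(quadraticChar_isQuadratic _).inv, jacobiSum] at k
  have k2 : ∑ x, qc p x * qc p (1 - x) = -qc p (-1) := by unfold qc; exact_mod_cast k
  rw [sum_sq h fun y => qc p (y - D)]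
  simp only [add_mul, one_mul, sum_add_distrib]
  rw [show ∑ x, qc p (x - D) = 0 from (Equiv.sum_comp (Equiv.subRight D) (qc p)).trans (qc_sum h),
    ← Equiv.sum_comp (Equiv.mulLeft₀ D hD), add_zero,
    zero_sub, ← qc_sq (p := p) (neg_ne_zero.2 one_ne_zero), ← mul_neg, ← k2, mul_sum]
  refine sum_congr rfl fun x _ => ?_
  rw [Equiv.mulLeft₀_apply, show D * x - D = D * (-1 * (1 - x)) by ring, qc_mul, qc_mul, qc_mul]
  linear_combination qc p x * qc p (-1) * qc p (1 - x) * qc_sq hD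

end prime

/-! ### Gauss sums -/

/-- the twisted Gauss sum -/
def gk (δ : ℕ) (k : ℤ) : ℂ := ∑ x ∈ range δ, (J(x | δ) : ℂ) * ee ((k * x : ℤ) / δ)

theorem gk_one (δ : ℕ) : gk δ 1 = gs δ := by simp [gk, gs]

theorem gk_mul {a b : ℕ} (ha : a ≠ 0) (hb : b ≠ 0) (h : a.Coprime b) (k : ℤ) :
    gk (a * b) k = J(b | a) * J(a | b) * (gk a k * gk b k) := by
  have a0 : (a : ℂ) ≠ 0 := Nat.cast_ne_zero.2 ha
  have b0 : (b : ℂ) ≠ 0 := Nat.cast_ne_zero.2 hb
  have c := Nat.isCoprime_iff_coprime.2 h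
  rw [gk, crt1 ha hb dvd_rfl c dvd_rfl c.symm
    (f := fun x => (J(x | a * b) : ℂ) * ee ((k * x : ℤ) / (a * b : ℕ))) fun x y d => by
      beta_reduce
      rw [J_congr d, ee_dvd (mul_ne_zero ha hb) (mul_sub k x y ▸ d.mul_left k)],
    gk, gk, sum_mul_sum, mul_sum]
  refine sum_congr rfl fun u _ => ?_
  rw [mul_sum]
  refine sum_congr rfl fun v _ => ?_
  rw [jacobiSym.mul_right' _ ha hb, J_congr (a := b * u + a * v) (b := b * u) (n := a) (by simp),
    J_congr (a := b * u + a * v) (b := a * v) (n := b) (by simp), jacobiSym.mul_left,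
    jacobiSym.mul_left, show ((k * (b * u + a * v) : ℤ) : ℂ) / (a * b : ℕ) =
      (k * u : ℤ) / a + (k * v : ℤ) / b by push_cast; field_simp, ee_add]
  push_cast
  ring

theorem gs_mul {a b : ℕ} (ha : a ≠ 0) (hb : b ≠ 0) (h : a.Coprime b) :
    gs (a * b) = J(b | a) * J(a | b) * (gs a * gs b) := by
  simpa only [gk_one] using gk_mul ha hb h 1

/-- **twisted Gauss sums** -/
theorem gk_eq {δ : ℕ} (ho : Odd δ) (hs : Squarefree δ) (k : ℤ) : gk δ k = J(k | δ) * gs δ := by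
  refine sq_ind (P := fun δ => gk δ k = J(k | δ) * gs δ) (by simp [gk, gs]) (fun p hp h2 => ?_)
    (fun a b _ _ sa sb c h1 h2 => ?_) δ ho hs
  · have := Fact.mk hp
    rw [J_qc, ← qc_tw h2, gk, ← sum_zmod]
    refine sum_congr rfl fun x _ => ?_
    rw [J_qc, ee_std]
    push_cast
    rfl
  · rw [gk_mul sa.ne_zero sb.ne_zero c, gs_mul sa.ne_zero sb.ne_zero c, h1, h2,
      jacobiSym.mul_right' _ sa.ne_zero sb.ne_zero]
    push_cast
    ring

theorem sum_J {δ : ℕ} (ho : Odd δ) (hs : Squarefree δ) (h1 : 1 < δ) :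
    ∑ x ∈ range δ, J(x | δ) = 0 := by
  have := gk_eq ho hs 0
  rw [jacobiSym.zero_left h1, gk] at this
  simp only [zero_mul, Int.cast_zero, zero_div, ee_zero, mul_one] at this
  exact_mod_cast this

theorem ex_neg {δ : ℕ} (ho : Odd δ) (hs : Squarefree δ) (h1 : 1 < δ) : ∃ a : ℕ, J(a | δ) = -1 := by
  by_contra! h
  refine (sum_pos' (fun x _ => ?_) ⟨1, mem_range.2 h1, by simp⟩).ne' (sum_J ho hs h1)
  have := h x
  rcases jacobiSym.trichotomy x δ with e | e | e <;> omega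

/-- `1` or `i` -/
def e4 (δ : ℕ) : ℂ := if δ % 4 = 1 then 1 else I

theorem gs_prime {p : ℕ} (hp : p.Prime) (h2 : p ≠ 2) : gs p = e4 p * (√(p : ℝ) : ℝ) := by
  have := Fact.mk hp
  have p0 : (p : ℂ) ≠ 0 := Nat.cast_ne_zero.2 hp.ne_zero
  obtain ⟨m, hm⟩ := hp.odd_of_ne_two h2
  have e1 : ∑ v ∈ range p, ee (((v : ℤ) ^ 2 : ℤ) / p) = gs p := by
    simp only [ee_std]
    simp only [Int.cast_pow, Int.cast_natCast]
    rw [sum_zmod p fun u => ZMod.stdAddChar (u ^ 2), sum_sq h2, gs_qc]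
    simp only [add_mul, one_mul, sum_add_distrib]
    rw [AddChar.sum_eq_zero_iff_ne_zero.2, add_zero]
    exact fun e => ZMod.isPrimitive_stdAddChar p (a := 1) one_ne_zero
      ((AddChar.mulShift_one _).trans e)
  have c : IsCoprime (2 : ℤ) p := ⟨-m, 1, by rw [hm]; push_cast; ring⟩
  have e2 := crt1 two_ne_zero hp.ne_zero dvd_rfl c dvd_rfl c.symm
    (f := fun x => ee ((x ^ 2 : ℤ) / (4 * p : ℕ))) fun x y ⟨k, d⟩ =>
      ee_dvd (by omega) ⟨k * y + k ^ 2 * p, by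
        rw [sub_eq_iff_eq_add.1 d]; push_cast; ring⟩
  have e3 : ∑ x ∈ range (2 * p), ee (((x : ℤ) ^ 2 : ℤ) / (4 * p : ℕ)) = (√(p : ℝ) : ℝ) * (1 + I) := by
    rw [← P016Z.Sym.gs1_eq hp.pos, P016Z.Sym.gs1]
    refine sum_congr rfl fun x _ => ?_
    rw [ee, P016Z.TH.ee]
    push_cast
    rfl
  have e4' : ∀ u v : ℕ, ee (((p * u + (2 : ℕ) * v : ℤ) ^ 2 : ℤ) / (4 * p : ℕ)) =
      ee (p * u ^ 2 / 4) * ee (((v : ℤ) ^ 2 : ℤ) / p) := fun u v => by
    rw [← ee_add]
    refine ee_congr (u * v) ?_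
    push_cast
    field_simp
    ring
  have e5 : ee (p / 4) = I ^ p := by
    rw [← exp_pi_div_two_mul_I, ← exp_nat_mul, ee]
    congr 1
    ring
  simp only [e4', ← mul_sum, e1] at e2
  rw [e3, sum_range_succ, sum_range_one] at e2
  simp only [Nat.cast_zero, Nat.cast_one, one_pow, mul_one, ne_eq, OfNat.ofNat_ne_zero,
    not_false_eq_true, zero_pow, mul_zero, zero_div, ee_zero, e5] at e2
  rw [I_pow_eq_pow_mod] at e2
  have hI : (1 + I : ℂ) ≠ 0 := fun h => by simpa using congrArg Complex.re h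
  rw [e4]
  split_ifs with h4
  · rw [h4] at e2
    exact mul_left_cancel₀ hI (by linear_combination -e2)
  · rw [show p % 4 = 3 by omega, I_pow_three] at e2
    exact mul_left_cancel₀ hI (by
      linear_combination -I * e2 + gs p * I_mul_I)

theorem J_neg_one {δ : ℕ} (ho : Odd δ) : J(-1 | δ) = if δ % 4 = 1 then 1 else -1 := by
  rw [jacobiSym.at_neg_one ho]
  split_ifs with h
  · exact ZMod.χ₄_nat_one_mod_four h
  · exact ZMod.χ₄_nat_three_mod_four (by obtain ⟨m, rfl⟩ := ho; omega)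

theorem J_cop {a b : ℕ} (h : a.Coprime b) : J(a | b) * J(a | b) = 1 := by
  rw [← sq, jacobiSym.sq_one (by simpa using h)]

theorem e4_mul {a b : ℕ} (ha : Odd a) (hb : Odd b) (h : a.Coprime b) :
    e4 (a * b) = J(b | a) * J(a | b) * (e4 a * e4 b) := by
  have k : (J(b | a) : ℂ) * J(b | a) = 1 := by exact_mod_cast J_cop h.symm
  have ha' : a % 4 = 1 ∨ a % 4 = 3 := by obtain ⟨m, rfl⟩ := ha; omega
  have hb' : b % 4 = 1 ∨ b % 4 = 3 := by obtain ⟨m, rfl⟩ := hb; omega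
  rcases ha' with h1 | h1 <;> rcases hb' with h2 | h2 <;>
    simp only [e4, Nat.mul_mod a b 4, h1, h2] <;> norm_num
  · rw [jacobiSym.quadratic_reciprocity_one_mod_four h1 hb, k]
  · rw [jacobiSym.quadratic_reciprocity_one_mod_four h1 hb, k]
  · rw [jacobiSym.quadratic_reciprocity_one_mod_four' ha h2, k]
  · rw [jacobiSym.quadratic_reciprocity_three_mod_four h1 h2]
    push_cast
    linear_combination -k

/-- **the sign of the Gauss sum** -/
theorem gs_val {δ : ℕ} (ho : Odd δ) (hs : Squarefree δ) : gs δ = e4 δ * (√(δ : ℝ) : ℝ) := by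
  refine sq_ind (P := fun δ => gs δ = e4 δ * (√(δ : ℝ) : ℝ)) (by simp [gs, e4, ee_zero])
    (fun p => gs_prime) (fun a b oa ob sa sb c h1 h2 => ?_) δ ho hs
  rw [gs_mul sa.ne_zero sb.ne_zero c, h1, h2, e4_mul oa ob c, Nat.cast_mul,
    Real.sqrt_mul (Nat.cast_nonneg a)]
  push_cast
  ring

theorem e4_sq {δ : ℕ} (ho : Odd δ) : e4 δ ^ 2 = eps δ := by
  rw [eps, J_neg_one ho, e4]
  split_ifs <;> simp

theorem e4_norm (δ : ℕ) : normSq (e4 δ) = 1 := by
  rw [e4]
  split_ifs <;> simp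

theorem gs_sq {δ : ℕ} (ho : Odd δ) (hs : Squarefree δ) : gs δ ^ 2 = eps δ * δ := by
  rw [gs_val ho hs, mul_pow, e4_sq ho, ← ofReal_pow, Real.sq_sqrt (Nat.cast_nonneg δ)]
  rfl

/-- `kap` in closed form -/
theorem kap_eq {N δ : ℕ} (ho : Odd δ) (hs : Squarefree δ) :
    kap N δ = e4 δ * J(N | δ) / (√(2 * N : ℝ) : ℝ) := by
  have : ((√(δ : ℝ) : ℝ) : ℂ) ≠ 0 :=
    ofReal_ne_zero.2 (Real.sqrt_ne_zero'.2 (Nat.cast_pos.2 ho.pos))
  rw [kap, gs_val ho hs, Real.sqrt_mul (by positivity), ofReal_mul, mul_right_comm,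
    mul_div_mul_right _ _ this]

end Vale.Agent.P004Z.Gq
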