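import Vale.Agent.P004Z.Th.Gs
import Vale.Agent.P004Z.St

/-!
# P004Z: row PHI, the finite Fourier transform of the genus character (helper84)
-/

set_option autoImplicit false
set_option linter.all false

open Complex Finset CongruenceSubgroup
open scoped Real NumberTheorySymbols MatrixGroups

noncomputable section

namespace Vale.Agent.P004Z

namespace Gq

open Hd

variable {N δ : ℕ} {l m : Fm}

/-- the genus character on the null cone -/
def cg (δ : ℕ) (l : Fm) : ℤ := if (δ : ℤ) ∣ disc l then gc δ l else 0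

theorem ph_eq (r : ZMod (2 * N)) (l : Fm) :
    ph N δ r l = (if (N : ℤ) ∣ l.1 ∧ (l.2.1 : ZMod (2 * N)) = r then 1 else 0) * cg δ l := by
  rw [ph, cg]
  by_cases a : (N : ℤ) ∣ l.1 ∧ (l.2.1 : ZMod (2 * N)) = r
  · simp [a]
  · rw [if_neg a, if_neg fun b => a ⟨b.1, b.2.1⟩, zero_mul]

theorem dvd_cg {n a b : ℤ} (h : n ∣ a - b) : n ∣ a ↔ n ∣ b := dvd_iff_dvd_of_dvd_sub h

theorem cg_congr (h1 : (δ : ℤ) ∣ l.1 - m.1) (h2 : (δ : ℤ) ∣ l.2.1 - m.2.1)
    (h3 : (δ : ℤ) ∣ l.2.2 - m.2.2) : cg δ l = cg δ m := by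
  refine if_congr (dvd_cg ?_) (prod_congr rfl fun p hp => ?_) rfl
  · rw [show disc l - disc m = (l.2.1 - m.2.1) * (l.2.1 + m.2.1) - ((l.1 - m.1) * (4 * l.2.2) +
      (l.2.2 - m.2.2) * (4 * m.1)) by simp only [disc]; ring]
    exact (h2.mul_right _).sub ((h1.mul_right _).add (h3.mul_right _))
  · have d : (p : ℤ) ∣ δ := Int.natCast_dvd_natCast.2 (Nat.dvd_of_mem_primeFactors hp)
    exact if_congr (dvd_cg (d.trans h1)) (J_congr (d.trans h3)) (J_congr (d.trans h1))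

theorem cg_mul {a b : ℕ} (h : a.Coprime b) (l : Fm) : cg (a * b) l = cg a l * cg b l := by
  have c := Nat.isCoprime_iff_coprime.2 h
  rw [cg, cg, cg, gc, h.primeFactors_mul, prod_union h.disjoint_primeFactors, ite_zero_mul_ite_zero]
  push_cast
  exact if_congr ⟨fun d => ⟨(dvd_mul_right _ _).trans d, (dvd_mul_left _ _).trans d⟩,
    fun d => c.mul_dvd d.1 d.2⟩ rfl rfl

theorem cg_smul (hs : Squarefree δ) {k : ℤ} (hk : IsCoprime k δ) (l : Fm) :
    cg δ (k • l) = J(k | δ) * cg δ l := by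
  rw [cg, cg, gc_smul hs hk, mul_ite, mul_zero, show disc (k • l) = k ^ 2 * disc l by
    simp only [disc, Prod.smul_fst, Prod.smul_snd, smul_eq_mul]; ring]
  exact if_congr ⟨hk.symm.pow_right.dvd_of_dvd_mul_left, fun d => d.mul_left _⟩ rfl rfl

theorem cg_add (hs : Squarefree δ) {k : ℤ} (hk : IsCoprime k δ) (l m : Fm) :
    cg δ ((δ : ℤ) • l + k • m) = J(k | δ) * cg δ m :=
  (cg_congr (by simp) (by simp) (by simp)).trans (cg_smul hs hk m)

theorem cg_fa (h : Odd δ) (l : Fm) (γ : SL(2, ℤ)) : cg δ (fa l γ) = cg δ l :=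
  if_ctx_congr (by rw [disc_fa]) (fun a => gc_fa h a γ) fun _ => rfl

/-- sums over a box -/
def B3 (a b : ℕ) (f : Fm → ℂ) : ℂ := ∑ x ∈ range a, ∑ y ∈ range b, ∑ z ∈ range a, f (x, y, z)

theorem B3_mul {a b c d : ℕ} (f g : Fm → ℂ) :
    (B3 a b fun l => B3 c d fun m => f l * g m) = B3 a b f * B3 c d g := by
  simp only [B3, ← mul_sum, ← sum_mul]

theorem crt3 {a b : ℕ} (ha : a ≠ 0) (hb : b ≠ 0) (hδ : δ ≠ 0) {β : ℤ} (h1 : IsCoprime (a : ℤ) δ)
    (h2 : IsCoprime (b : ℤ) δ) (h3 : (a : ℤ) ∣ β) (h4 : (b : ℤ) ∣ β) (h5 : IsCoprime (δ : ℤ) β)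
    {f : Fm → ℂ} (hf : ∀ l m : Fm, ((a * δ : ℕ) : ℤ) ∣ l.1 - m.1 → ((b * δ : ℕ) : ℤ) ∣ l.2.1 - m.2.1 →
      ((a * δ : ℕ) : ℤ) ∣ l.2.2 - m.2.2 → f l = f m) :
    B3 (a * δ) (b * δ) f = B3 a b fun l => B3 δ δ fun m => f ((δ : ℤ) • l + β • m) := by
  rw [B3, crt1 ha hδ dvd_rfl h1 h3 h5 (f := fun x => ∑ y ∈ range (b * δ), ∑ z ∈ range (a * δ),
    f (x, y, z)) fun x x' d => sum_congr rfl fun y _ => sum_congr rfl fun z _ =>
      hf _ _ d (by simp) (by simp), B3]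
  refine sum_congr rfl fun x _ => ?_
  have e (u : ℤ) : ∑ y ∈ range (b * δ), ∑ z ∈ range (a * δ), f (u, y, z) = ∑ y ∈ range b,
      ∑ z ∈ range a, ∑ y' ∈ range δ, ∑ z' ∈ range δ, f (u, δ * y + β * y', δ * z + β * z') := by
    rw [crt1 hb hδ dvd_rfl h2 h4 h5 (f := fun y => ∑ z ∈ range (a * δ), f (u, y, z))
      fun y y' d => sum_congr rfl fun z _ => hf _ _ (by simp) d (by simp)]
    refine sum_congr rfl fun y _ => ?_
    rw [sum_comm (s := range a)]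
    exact sum_congr rfl fun y' _ => crt1 ha hδ dvd_rfl h1 h3 h5
      (f := fun z => f (u, δ * y + β * y', z)) fun z z' d => hf _ _ (by simp) (by simp) d
  simp only [e]
  rw [sum_comm]
  refine sum_congr rfl fun y _ => ?_
  rw [sum_comm]
  rfl

theorem bil_add (a b : ℤ) (l l' m : Fm) : bil (a • l + b • l') m = a * bil l m + b * bil l' m := by
  simp only [bil, Prod.fst_add, Prod.snd_add, Prod.smul_fst, Prod.smul_snd, smul_eq_mul]
  ring

theorem bil_dvd {n k : ℤ} (h1 : n ∣ 2 * k) (a : k ∣ l.1 - m.1) (b : n ∣ l.2.1 - m.2.1)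
    (c : k ∣ l.2.2 - m.2.2) (u : Fm) : n ∣ bil l u - bil m u := by
  rw [show bil l u - bil m u = 2 * (l.1 - m.1) * u.2.2 + 2 * (l.2.2 - m.2.2) * u.1 -
    (l.2.1 - m.2.1) * u.2.1 by simp only [bil]; ring]
  exact (((h1.trans (mul_dvd_mul_left 2 a)).mul_right _).add
    ((h1.trans (mul_dvd_mul_left 2 c)).mul_right _)).sub (b.mul_right _)

/-- the Fourier transform on the null cone -/
def T3 (δ : ℕ) (m : Fm) : ℂ := B3 δ δ fun l => cg δ l * ee (bil l m / δ)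

section prime

variable {p : ℕ} [Fact p.Prime]

theorem cg_prime (l : Fm) : (cg p l : ℂ) = if (l.2.1 : ZMod p) ^ 2 - 4 * l.1 * l.2.2 = 0 then
    if (l.1 : ZMod p) = 0 then qc p l.2.2 else qc p l.1 else 0 := by
  simp only [cg, gc, (Fact.out : p.Prime).primeFactors, prod_singleton,
    ← ZMod.intCast_zmod_eq_zero_iff_dvd, disc]
  push_cast
  simp only [J_qc]

theorem two_ne (h : p ≠ 2) : (2 : ZMod p) ≠ 0 := Ring.two_ne_zero (char_ne h)

theorem sum_Q (h : p ≠ 2) (a b c : ZMod p) : ∑ t, qc p (a * t ^ 2 - b * t + c) + qc p a =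
    p * if b ^ 2 - 4 * a * c = 0 then if a = 0 then qc p c else qc p a else 0 := by
  rcases eq_or_ne a 0 with rfl | ha
  · rcases eq_or_ne b 0 with rfl | hb
    · simp [qc_zero]
    have := (Equiv.sum_comp ((Equiv.mulLeft₀ _ (neg_ne_zero.2 hb)).trans (Equiv.addRight c))
      (qc p)).trans (qc_sum h)
    simpa [qc_zero, hb] using this
  have h2 := two_ne h
  have e (t : ZMod p) : qc p (a * t ^ 2 - b * t + c) =
      qc p a * qc p ((2 * a * t - b) ^ 2 - (b ^ 2 - 4 * a * c)) := by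
    rw [show (2 * a * t - b) ^ 2 - (b ^ 2 - 4 * a * c) = a * (2 * (2 * (a * t ^ 2 - b * t + c))) by
      ring, qc_mul, qc_mul, qc_mul, ← mul_assoc, ← mul_assoc (qc p 2), qc_sq ha, qc_sq h2, one_mul,
      one_mul]
  have := Equiv.sum_comp ((Equiv.mulLeft₀ _ (mul_ne_zero h2 ha)).trans (Equiv.subRight b))
    fun u => qc p (u ^ 2 - (b ^ 2 - 4 * a * c))
  simp only [Equiv.trans_apply, Equiv.mulLeft₀_apply, Equiv.subRight_apply] at this
  simp only [e, ← mul_sum, this, sum_disc h, if_neg ha]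
  split_ifs <;> ring

theorem T3_prime (h : p ≠ 2) (m : Fm) : T3 p m = p * J(2 | p) * gs p * cg p m := by
  have h2 := two_ne h
  let F : ZMod p → ZMod p → ZMod p → ℂ := fun a b c =>
    (if b ^ 2 - 4 * a * c = 0 then if a = 0 then qc p c else qc p a else 0) *
      ZMod.stdAddChar (2 * a * m.2.2 + 2 * m.1 * c - b * m.2.1 : ZMod p)
  have e1 : T3 p m = ∑ a, ∑ b, ∑ c, F a b c := by
    simp only [T3, B3, ← sum_zmod, cg_prime, ee_std, bil, F]
    push_cast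
    rfl
  have e2 (a : ZMod p) : ∑ b, ∑ c, F a b c = ∑ t, qc p a * ZMod.stdAddChar
      (2 * (m.1 * t ^ 2 - m.2.1 * t + m.2.2) * a : ZMod p) +
      if a = 0 then ∑ c, qc p c * ZMod.stdAddChar (2 * m.1 * c : ZMod p) else 0 := by
    split_ifs with ha
    · subst ha
      rw [sum_eq_single 0 (fun b _ hb => by simp [F, hb]) (by simp)]
      simp [F, qc_zero]
    rw [add_zero, ← Equiv.sum_comp (Equiv.mulLeft₀ _ (mul_ne_zero h2 ha))]
    refine sum_congr rfl fun t _ => ?_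
    have k (c : ZMod p) : (2 * a * t) ^ 2 - 4 * a * c = 0 ↔ c = a * t ^ 2 := by
      rw [show (2 * a * t) ^ 2 - 4 * a * c = 2 * a * (2 * (a * t ^ 2 - c)) by ring,
        mul_eq_zero, mul_eq_zero, mul_eq_zero, sub_eq_zero, eq_comm (a := c)]
      simp [h2, ha]
    simp only [F, Equiv.mulLeft₀_apply, k, if_neg ha, ite_mul, zero_mul, sum_ite_eq', mem_univ,
      if_true]
    congr 2
    ring
  simp only [e1, e2, sum_add_distrib, sum_ite_eq', mem_univ, if_true]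
  rw [sum_comm]
  simp only [qc_tw h, qc_mul, ← sum_mul, ← mul_sum]
  rw [J_qc, cg_prime]
  push_cast
  linear_combination qc p 2 * gs p * sum_Q h (m.1 : ZMod p) m.2.1 m.2.2

end prime

theorem T3_eq (ho : Odd δ) (hs : Squarefree δ) (m : Fm) :
    T3 δ m = δ * J(2 | δ) * gs δ * cg δ m := by
  refine sq_ind (P := fun δ => T3 δ m = δ * J(2 | δ) * gs δ * cg δ m)
    (by simp [T3, B3, gs, cg, gc, bil, ee_zero]) (fun p hp h2 => have := Fact.mk hp; T3_prime h2 m)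
    (fun a b _ _ sa sb c h1 h2 => ?_) δ ho hs
  have a0 : (a : ℂ) ≠ 0 := Nat.cast_ne_zero.2 sa.ne_zero
  have b0 : (b : ℂ) ≠ 0 := Nat.cast_ne_zero.2 sb.ne_zero
  have c' := Nat.isCoprime_iff_coprime.2 c
  have e (l l' : Fm) : (cg (a * b) ((b : ℤ) • l + (a : ℤ) • l') : ℂ) *
      ee (bil ((b : ℤ) • l + (a : ℤ) • l') m / (a * b : ℕ)) =
      J(b | a) * J(a | b) * (cg a l * ee (bil l m / a)) * (cg b l' * ee (bil l' m / b)) := by
    rw [cg_mul c, cg_add sb c', add_comm, cg_add sa c'.symm, bil_add,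
      show ((a * bil l' m + b * bil l m : ℤ) : ℂ) / (a * b : ℕ) = bil l m / a + bil l' m / b by
        push_cast; field_simp; ring, ee_add]
    push_cast
    ring
  rw [T3, crt3 sa.ne_zero sa.ne_zero sb.ne_zero c' c' dvd_rfl dvd_rfl c'.symm fun l l' d1 d2 d3 => by
    rw [cg_congr d1 d2 d3, ee_dvd (mul_ne_zero sa.ne_zero sb.ne_zero)
      (bil_dvd (dvd_mul_left _ _) d1 d2 d3 m)]]
  simp only [e]
  rw [B3_mul, ← T3, h2, show (B3 a a fun l => J(b | a) * J(a | b) * (cg a l * ee (bil l m / a))) =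
    J(b | a) * J(a | b) * T3 a m by simp only [T3, B3, mul_sum], h1, cg_mul c,
    gs_mul sa.ne_zero sb.ne_zero c, jacobiSym.mul_right' _ sa.ne_zero sb.ne_zero]
  push_cast
  ring

variable [NeZero N]

theorem sum_ee (k : ℤ) : ∑ z ∈ range N, ee ((k * z : ℤ) / N) = if (N : ℤ) ∣ k then (N : ℂ) else 0 := by
  have := AddChar.sum_mulShift (k : ZMod N) (ZMod.isPrimitive_stdAddChar N)
  rw [ZMod.card, ← sum_zmod] at this
  simp only [ee_std, ← ZMod.intCast_zmod_eq_zero_iff_dvd]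
  push_cast at this ⊢
  simpa only [mul_comm] using this

theorem unit {k : ℕ} (h : Ok N δ) (hk : k ∣ 4) : IsUnit (δ : ZMod (k * N)) :=
  (ZMod.isUnit_iff_coprime _ _).2 (Nat.Coprime.mul_right (Nat.Coprime.coprime_dvd_right hk
    (Nat.Coprime.pow_right 2 (Nat.coprime_two_right.2 h.odd))) h.cop.symm)

/-- the part of level `N` -/
theorem B3_N (h : Ok N δ) (r : ZMod (2 * N)) (m : Fm) :
    (B3 N (2 * N) fun l => (if (N : ℤ) ∣ l.1 ∧ (δ * l.2.1 : ZMod (2 * N)) = r then 1 else 0) *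
      ee (bil l m / (2 * N : ℕ))) = (if (N : ℤ) ∣ m.1 then (N : ℂ) else 0) *
        ZMod.stdAddChar (-((δ : ZMod (2 * N))⁻¹ * r * m.2.1) : ZMod (2 * N)) := by
  have n0 : (N : ℂ) ≠ 0 := Nat.cast_ne_zero.2 (NeZero.ne N)
  have u := unit (k := 2) h (by norm_num)
  have e (y z : ℕ) : ee (bil (0, y, z) m / (2 * N : ℕ)) =
      ee ((m.1 * z : ℤ) / N) * ZMod.stdAddChar (-(y * m.2.1) : ZMod (2 * N)) := by
    rw [show (-((y : ZMod (2 * N)) * m.2.1)) = ((-(y * m.2.1) : ℤ) : ZMod (2 * N)) by simp,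
      ← ee_std, ← ee_add, bil]
    congr 1
    push_cast
    field_simp
    ring
  rw [B3, sum_eq_single 0 (fun x hx h0 => by
    have : ¬ (N : ℤ) ∣ x := fun d => h0 (Nat.eq_zero_of_dvd_of_lt (Int.natCast_dvd_natCast.1 d)
      (mem_range.1 hx))
    simp [this]) (by simp [NeZero.pos])]
  simp only [Nat.cast_zero, e, dvd_zero, true_and, Int.cast_natCast, ← mul_sum, ← sum_mul, sum_ee]
  rw [sum_zmod (2 * N) fun y => (if δ * y = r then 1 else 0) * ((if (N : ℤ) ∣ m.1 then (N : ℂ) else 0) *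
    ZMod.stdAddChar (-(y * m.2.1) : ZMod (2 * N))), sum_eq_single ((δ : ZMod (2 * N))⁻¹ * r) (fun y _ hy => by
      rw [if_neg fun d => hy (by rw [← d, ← mul_assoc, ZMod.inv_mul_of_unit _ u, one_mul]),
        zero_mul]) (by simp), if_pos (by rw [← mul_assoc, ZMod.mul_inv_of_unit _ u, one_mul]),
    one_mul]

omit [NeZero N] in
theorem ph_congr (r : ZMod (2 * N)) (a : ((N * δ : ℕ) : ℤ) ∣ l.1 - m.1)
    (b : ((2 * N * δ : ℕ) : ℤ) ∣ l.2.1 - m.2.1) (c : ((N * δ : ℕ) : ℤ) ∣ l.2.2 - m.2.2) :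
    ph N δ r l = ph N δ r m := by
  push_cast at a b c
  rw [ph_eq, ph_eq, cg_congr ((dvd_mul_left _ _).trans a) ((dvd_mul_left _ _).trans b)
    ((dvd_mul_left _ _).trans c), cast_eq (n := 2 * N) (by
      push_cast; exact (dvd_mul_right _ _).trans b)]
  simp only [dvd_cg ((dvd_mul_right _ _).trans a)]

theorem ft_ph (h : Ok N δ) (r : ZMod (2 * N)) (m : Fm) :
    ft (N * δ) (fun l => ph N δ r l) m = ∑ s, sm N δ r s * ph N δ s m := by
  have n0 := NeZero.ne N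
  have d0 := h.sq.ne_zero
  have n1 : (N : ℂ) ≠ 0 := Nat.cast_ne_zero.2 n0
  have d1 : (δ : ℂ) ≠ 0 := Nat.cast_ne_zero.2 d0
  have c1 := Nat.isCoprime_iff_coprime.2 h.cop
  have c2 : IsCoprime ((2 * N : ℕ) : ℤ) δ :=
    Nat.isCoprime_iff_coprime.2 ((Nat.coprime_two_left.2 h.odd).mul_left h.cop)
  have z : ((2 * N : ℕ) : ZMod (2 * N)) = 0 := ZMod.natCast_self _
  have e (l l' : Fm) : (ph N δ r ((δ : ℤ) • l + ((2 * N : ℕ) : ℤ) • l') : ℂ) *
      ee (bil ((δ : ℤ) • l + ((2 * N : ℕ) : ℤ) • l') m / (2 * N * δ : ℕ)) =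
      (if (N : ℤ) ∣ l.1 ∧ (δ * l.2.1 : ZMod (2 * N)) = r then 1 else 0) * ee (bil l m / (2 * N : ℕ)) *
        (J((2 * N : ℕ) | δ) * (cg δ l' * ee (bil l' m / δ))) := by
    rw [ph_eq, cg_add h.sq c2, bil_add, show ((δ * bil l m + (2 * N : ℕ) * bil l' m : ℤ) : ℂ) /
      (2 * N * δ : ℕ) = bil l m / (2 * N : ℕ) + bil l' m / δ by push_cast; field_simp, ee_add,
      if_congr (Q := (N : ℤ) ∣ l.1 ∧ (δ * l.2.1 : ZMod (2 * N)) = r) (and_congr ?_ ?_) rfl rfl]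
    · simp only [Int.cast_mul, Int.cast_ite, Int.cast_one, Int.cast_zero]
      ring
    · exact (dvd_cg (b := δ * l.1) ⟨2 * l'.1, by simp; ring⟩).trans
        ⟨c1.dvd_of_dvd_mul_left, fun d => d.mul_left _⟩
    · simp only [Prod.snd_add, Prod.fst_add, Prod.smul_snd, Prod.smul_fst, smul_eq_mul, Int.cast_add,
        Int.cast_mul, Int.cast_natCast, z, zero_mul, add_zero]
  have k := crt3 n0 (mul_ne_zero two_ne_zero n0) d0 c1 c2 (by simp) dvd_rfl c2.symm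
    (f := fun l => ph N δ r l * ee (bil l m / (2 * N * δ : ℕ))) fun l l' d1 d2 d3 => by
      rw [ph_congr r d1 d2 d3, ee_dvd (by positivity) (bil_dvd (by simp [mul_assoc]) d1 d2 d3 m)]
  simp only [e] at k
  rw [B3_mul, B3_N h, show (B3 δ δ fun l => J((2 * N : ℕ) | δ) * (cg δ l * ee (bil l m / δ))) =
    J((2 * N : ℕ) | δ) * T3 δ m by simp only [T3, B3, mul_sum], T3_eq h.odd h.sq] at k
  rw [ft, ← mul_assoc 2, show (2 * (N * δ : ℕ) : ℂ) = (2 * N * δ : ℕ) by push_cast; ring]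
  refine (congrArg _ k).trans ?_
  have j : (J(2 | δ) : ℂ) * J(2 | δ) = 1 := by exact_mod_cast J_cop (Nat.coprime_two_left.2 h.odd)
  have s : √(2 * (N * δ : ℕ) ^ 3 : ℝ) = N * δ * √(2 * N * δ) := by
    rw [show (2 * (N * δ : ℕ) ^ 3 : ℝ) = (N * δ) ^ 2 * (2 * N * δ) by push_cast; ring,
      Real.sqrt_mul (by positivity), Real.sqrt_sq (by positivity)]
  rw [sum_eq_single (m.2.1 : ZMod (2 * N)) (fun s _ hs => by simp [ph_eq, hs.symm]) (by simp),
    ph_eq, sm, kap, s, Nat.cast_mul, jacobiSym.mul_left]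
  generalize ZMod.stdAddChar (-((δ : ZMod (2 * N))⁻¹ * r * m.2.1) : ZMod (2 * N)) = w
  split_ifs with a b b
  · push_cast
    field_simp
    linear_combination gs δ * J(N | δ) * cg δ m * w / (√(2 * N * δ : ℝ) : ℝ) * j
  · exact absurd ⟨a, rfl⟩ b
  · exact absurd b.1 a
  · simp

theorem ee_tm (h : Ok N δ) {r : ZMod (2 * N)} (k : ph N δ r l ≠ 0) :
    ee (-(disc l : ℂ) / (4 * (N * δ : ℕ))) = tm N δ r := by
  obtain ⟨⟨a, ha⟩, hb, ⟨d, hd⟩, -⟩ := ph_ne k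
  obtain ⟨b, e⟩ := dvd_val (n := 2 * N) l.2.1
  have n1 : (N : ℂ) ≠ 0 := Nat.cast_ne_zero.2 (NeZero.ne N)
  have d1 : (δ : ℂ) ≠ 0 := Nat.cast_ne_zero.2 h.sq.ne_zero
  have : ((δ * d : ℤ) : ZMod (4 * N)) = (((r.val : ℤ) ^ 2 : ℤ) : ZMod (4 * N)) :=
    cast_eq ⟨-(a * l.2.2 + b * l.2.1 + N * b ^ 2), by
      rw [← hd, ← hb, sub_eq_iff_eq_add.1 e, disc, ha]; push_cast; ring⟩
  push_cast at this
  rw [tm, ← this, ← mul_assoc, ZMod.inv_mul_of_unit _ (unit h dvd_rfl), one_mul,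
    ← Int.cast_neg (R := ZMod (4 * N)), ← ee_std, hd]
  congr 1
  push_cast
  field_simp

theorem sum_ph (h : Ok N δ) (r : ZMod (2 * N)) (γ : SL(2, ℤ)) (b : ℤ) :
    ∑ c ∈ range (N * δ), ph N δ r (fa (0, b, c) γ) = 0 := by
  have c1 := Nat.isCoprime_iff_coprime.2 h.cop
  let I : ℤ → ℤ := fun c => (if (N : ℤ) ∣ (fa (0, b, c) γ).1 ∧
    ((fa (0, b, c) γ).2.1 : ZMod (2 * N)) = r then 1 else 0) * if (δ : ℤ) ∣ b ^ 2 then 1 else 0
  have e (c : ℤ) : ph N δ r (fa (0, b, c) γ) = I c * J(c | δ) := by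
    rw [ph_eq, cg_fa h.odd, cg, gc, J_prod h.sq]
    simp [I, disc]
  have p : P1 N I := fun x y ⟨k, d⟩ => by
    rw [sub_eq_iff_eq_add.1 d]
    refine congrArg (· * _) (if_congr (and_congr (dvd_cg ⟨k * γ 1 0 ^ 2, ?_⟩) ?_) rfl rfl)
    · simp only [fa]; ring
    · rw [cast_eq (b := (fa (0, b, y) γ).2.1) ⟨k * γ 1 0 * γ 1 1, by simp only [fa]; push_cast; ring⟩]
  simp only [e]
  rw [crt1 (NeZero.ne N) h.sq.ne_zero dvd_rfl c1 dvd_rfl c1.symm (f := fun c => I c * J(c | δ))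
    fun x y d => by
      push_cast at d
      beta_reduce
      rw [p x y ((dvd_mul_right _ _).trans d), J_congr ((dvd_mul_left _ _).trans d)]]
  refine sum_eq_zero fun u _ => ?_
  refine (sum_congr rfl (g := fun v : ℕ => I (δ * u) * J(N | δ) * J(v | δ)) fun v _ => ?_).trans ?_
  · rw [p _ (δ * u) (by simp), J_congr (b := N * v) (by simp), jacobiSym.mul_left, ← mul_assoc]
  · rw [← mul_sum, sum_J h.odd h.sq h.one, mul_zero]

end Gq

open Gq Hd

/-- **row PHI** -/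
theorem phi : PHI := fun N _ δ h => by
  have n0 : (0 : ℝ) < 2 * N := by have := NeZero.pos N; positivity
  have n1 : (N : ℂ) ≠ 0 := Nat.cast_ne_zero.2 (NeZero.ne N)
  have j := J_cop h.cop
  refine ⟨fun r l m => congrArg _ (ph_congr r (by simp) ⟨m.2.1, by push_cast; ring⟩ (by simp)), ft_ph h,
    fun r l => ee_tm h, fun l γ a => gc_fa h.odd a γ, fun r l γ => ph_fa h.odd r l,
    ph_neg h.sq, sum_ph h, ?_, ?_⟩
  · rw [kap_eq h.odd h.sq, div_pow, mul_pow, e4_sq h.odd, ← ofReal_pow, Real.sq_sqrt n0.le, sq,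
      ← Int.cast_mul, j]
    push_cast
    field_simp
  · rw [kap_eq h.odd h.sq, map_div₀, map_mul, e4_norm, normSq_intCast, normSq_ofReal,
      Real.mul_self_sqrt n0.le, ← Int.cast_mul, j, Int.cast_one, mul_one, mul_one_div_cancel n0.ne']

end Vale.Agent.P004Z
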