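import Vale.Agent.P004Z.Lf.Mix
import Vale.Agent.P004Z.Kf.St

/-!
# P004Z: rows THS and SUM, the inversion law of the theta kernels (helper84)
-/

set_option autoImplicit false
set_option linter.all false

open UpperHalfPlane hiding I
open Complex Finset
open scoped MatrixGroups Real ComplexConjugate

noncomputable section

namespace Vale.Agent.P004Z

namespace Tq

open Lf

variable {M : ℕ} [NeZero M] {φ φ' : Fm → ℂ}

theorem per_ft (φ : Fm → ℂ) (w : ℂ) : Per M fun l => w * ft M φ (-l) := fun l m => by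
  have := M_ne (M := M)
  simp only [ft]
  refine congrArg _ (congrArg _ (sum_congr rfl fun a _ => sum_congr rfl fun b _ =>
    sum_congr rfl fun c _ => congrArg _ (ee_congr (b * m.2.1 - a * m.2.2 - c * m.1) ?_)))
  simp only [bil, Prod.fst_neg, Prod.snd_neg]
  push_cast
  field_simp
  ring

/-- the quarter turn -/
def rot : ℤ × ℤ ≃ ℤ × ℤ :=
  ⟨fun v => (-v.2, v.1), fun v => (v.2, -v.1), fun _ => by simp, fun _ => by simp⟩

theorem sum0 (hp : Per M φ) (z τ : ℍ) :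
    HasSum (fun v => H0 M (fun _ => φ) z v τ) (th0 M φ τ z) := by
  simpa [H0_eq, th0] using mixS hp z τ 1 0 0 0

theorem sum1 (hp : Per M φ) (z τ : ℍ) :
    HasSum (fun v => H1 M (fun _ => φ) z v τ) (th1 M φ τ z) := by
  have hy := ofReal_ne_zero.2 z.im_ne_zero
  have hv := ofReal_ne_zero.2 τ.im_ne_zero
  refine hs_congr ((mixS hp z τ 0 (conj (z : ℂ) ^ 2 / z.im ^ 2) (conj (z : ℂ) / z.im ^ 2)
    (1 / z.im ^ 2)).mul_left (τ.im : ℂ)) (fun v => ?_) ?_
  · have c1 : conj (z : ℂ) = z.re - z.im * I := Complex.ext (by simp) (by simp)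
    have c2 : conj (τ : ℂ) = τ - 2 * τ.im * I := Complex.ext (by simp) (by simp; ring)
    rw [H1_eq, ← tb_mul, ← tb_mul, ← tb_mul, c1, c2, normSq_apply, coe_re, coe_im]
    congr 1
    · field_simp
      ring
    · push_cast
      field_simp
      ring_nf
      simp only [I_sq]
      ring
  · rw [th1, ← mul_assoc, ← sq]
    exact congrArg _ (tsum_congr fun l => by simp only [evq, coe_im]; ring)

theorem inv0 (hp : Per M φ) (z τ : ℍ) :
    th0 M (fun l => hw τ * ft M φ (-l)) (ModularGroup.S • τ : ℍ) z = th0 M φ τ z := by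
  refine (sum0 (per_ft φ _) z _).unique (hs_congr (rot.hasSum_iff.2 (sum0 hp z τ)) (fun v => ?_) rfl)
  rw [Function.comp, H0_eq, H0_eq, tb_S hp fun _ => rfl, hw_mul]
  simp only [rot, Equiv.coe_fn_mk, ← gq_S, zero_mul, neg_zero, ofReal_mul]
  ring

theorem inv1 (hp : Per M φ) (z τ : ℍ) :
    th1 M (fun l => -(τ * hw τ) * ft M φ (-l)) (ModularGroup.S • τ : ℍ) z = th1 M φ τ z := by
  refine (sum1 (per_ft φ _) z _).unique (hs_congr (rot.hasSum_iff.2 (sum1 hp z τ))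
    (fun ⟨a, d⟩ => ?_) rfl)
  have h0 := τ.ne_zero
  change _ = H1 M (fun _ => φ) z (-d, a) τ
  rw [H1_eq, H1_eq, tb_S hp fun _ => rfl, neg_mul, mul_assoc (τ : ℂ), hw_mul, ← gq_S,
    show -((τ : ℂ) * ‖(τ : ℂ)‖) = ‖(τ : ℂ)‖ * -τ by ring, mul_assoc _ (-(τ : ℂ)), ← tb_mul, im_S,
    W.coe_S, show -(τ : ℂ) * -(-((τ.im / normSq (τ : ℂ) : ℝ) : ℂ) * conj (τ : ℂ)) = -τ.im by
      have : conj (τ : ℂ) ≠ 0 := by simpa
      rw [ofReal_div, ← mul_conj]; field_simp,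
    show -(τ : ℂ) * (z.im * (a * -(τ : ℂ)⁻¹ + d)) = z.im * ((-d : ℤ) * τ + a) by
      push_cast; field_simp; ring]
  simp only [ofReal_mul]
  ring

omit [NeZero M] in
theorem gau_neg (l : Fm) (τ z : ℂ) : gau M (-l) τ z = gau M l τ z := by
  rw [gau, gau, Hd.disc_neg, show pz (-l) z = -pz l z by simp [pz]; ring, neg_sq]

omit [NeZero M] in
theorem th0_neg (w τ z : ℂ) : th0 M (fun l => w * φ (-l)) τ z = w * th0 M φ τ z := by
  rw [th0, th0, mul_left_comm, ← tsum_mul_left (a := w), ← (Equiv.neg Fm).tsum_eq]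
  simp only [Equiv.neg_apply, neg_neg, gau_neg, mul_assoc]

omit [NeZero M] in
theorem th1_neg (w τ z : ℂ) : th1 M (fun l => w * φ (-l)) τ z = -w * th1 M φ τ z := by
  rw [th1, th1, mul_left_comm, ← tsum_mul_left (a := -w), ← (Equiv.neg Fm).tsum_eq]
  simp only [Equiv.neg_apply, neg_neg, gau_neg, Hd.evq_neg, mul_assoc, neg_div, neg_mul, mul_neg]

theorem hw_S (τ : ℍ) : hw (ModularGroup.S • τ : ℍ) = (hw τ)⁻¹ := by
  refine W.sq_eq ?_ (hw_pos _).le (inv_re_pos (hw_pos τ))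
  rw [inv_pow, hw_sq, hw_sq, W.coe_S, inv_div, div_I]
  ring

end Tq

open Tq

/-- **row THS** -/
theorem ths : THS := fun ν φ h0 hp τ z hτ hz => by
  have := NeZero.mk h0.ne'
  have e : ((ModularGroup.S • (⟨τ, hτ⟩ : ℍ) : ℍ) : ℂ) = -1 / τ := by rw [W.coe_S, neg_div, one_div]
  have a := inv0 hp ⟨z, hz⟩ (ModularGroup.S • ⟨τ, hτ⟩)
  have b := inv1 hp ⟨z, hz⟩ (ModularGroup.S • ⟨τ, hτ⟩)
  rw [W.S_S, th0_neg, hw_S, e] at a
  rw [W.S_S, th1_neg, hw_S, e, neg_neg] at b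
  refine ⟨a.symm, b.symm.trans ?_⟩
  rw [mul_inv, neg_div, one_div, neg_mul]

/-- **row SUM** -/
theorem sum_row : Kf.SUM := fun ν τ z h0 hτ hz => by
  have : (0 : ℝ) < ν := Nat.cast_pos.2 h0
  have := Lf.wt_pos ⟨z, hz⟩
  have k := Lf.sum_aff (ψ := fun _ => 1) (C := 1) (by simp)
    (t := π * τ.im / (2 * ν * Lf.wt ⟨z, hz⟩)) (by positivity) fun l => Lf.gau_le l ⟨z, hz⟩ ν hτ.le
  refine ⟨by simpa using (k 1 0 0 0).norm, (k 0 (conj z ^ 2) (conj z) 1).norm.congr fun l => ?_⟩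
  rw [evq, coe_mk]
  ring_nf

end Vale.Agent.P004Z
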